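import Mathlib

/-!
P022-CFT, block [HNP], part (B) (helper218): the field set-up. `L / K` Galois of prime degree `l`,
`E = L(ζ)`, `F = K(ζ)`: `E / F` is a Kummer extension of degree `l`.
-/

open Polynomial IntermediateField NumberField

namespace Vale.Agent.P022.H218

section gal

variable (K L C : Type*) [Field K] [Field L] [NumberField L] [Field C] [NumberField K]
  [Algebra K L] [Algebra K C] [Algebra L C] [IsScalarTower K L C] [IsGalois K L] (m : ℕ) [NeZero m]
  [IsCyclotomicExtension {m} L C]

include L m in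
/-- the composite of a Galois extension and a cyclotomic one is Galois. -/
theorem isGalois_cyc : IsGalois K C := by
  have : NumberField C := IsCyclotomicExtension.numberField {m} L C
  have : NeZero (m : C) := ⟨by exact_mod_cast NeZero.ne m⟩
  have hζ := IsCyclotomicExtension.zeta_spec m L C
  set ζ := IsCyclotomicExtension.zeta m L C with hζd
  have := hζ.intermediateField_adjoin_isCyclotomicExtension K
  set F₁ : IntermediateField K C := K⟮ζ⟯ with hF₁
  have : IsGalois K F₁ := IsCyclotomicExtension.isGalois {m} K F₁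
  let φ : L →ₐ[K] C := IsScalarTower.toAlgHom K L C
  set F₂ : IntermediateField K C := φ.fieldRange with hF₂
  let e : L ≃ₐ[K] F₂ := AlgEquiv.ofInjectiveField φ
  have : Normal K F₂ := Normal.of_algEquiv e
  have htop : F₁ ⊔ F₂ = ⊤ := by
    rw [eq_top_iff]
    intro x _
    have hx : x ∈ IntermediateField.adjoin L ({ζ} : Set C) := by
      have h1 := IsCyclotomicExtension.adjoin_primitive_root_eq_top (A := L) (B := C) hζ
      have h2 : x ∈ Algebra.adjoin L ({ζ} : Set C) := by rw [h1]; trivial
      exact IntermediateField.algebra_adjoin_le_adjoin L _ h2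
    let T : IntermediateField L C :=
      { (F₁ ⊔ F₂).toSubfield with
        algebraMap_mem' := fun l => by
          have : algebraMap L C l ∈ F₂ := ⟨l, rfl⟩
          exact (le_sup_right : F₂ ≤ F₁ ⊔ F₂) this }
    have hT : IntermediateField.adjoin L ({ζ} : Set C) ≤ T := by
      rw [IntermediateField.adjoin_le_iff, Set.singleton_subset_iff]
      exact (le_sup_left : F₁ ≤ F₁ ⊔ F₂) (mem_adjoin_simple_self K ζ)
    exact hT hx
  have h1 : Normal K (F₁ ⊔ F₂ : IntermediateField K C) := inferInstance
  rw [htop] at h1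
  have h2 : Normal K C := Normal.of_algEquiv (topEquiv (F := K) (E := C))
  exact { }

end gal

/-- an automorphism of a cyclotomic extension is determined on the base and on the root. -/
theorem ext_cyc {L E : Type*} [Field L] [NumberField L] [Field E] [Algebra L E] {l : ℕ} [NeZero l]
    [IsCyclotomicExtension {l} L E] {ζ : E} (hζ : IsPrimitiveRoot ζ l) (f g : E →+* E)
    (hL : ∀ x : L, f (algebraMap L E x) = g (algebraMap L E x)) (hz : f ζ = g ζ) (x : E) :
    f x = g x := by
  have h1 := IsCyclotomicExtension.adjoin_primitive_root_eq_top (A := L) (B := E) hζ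
  have h2 : x ∈ Algebra.adjoin L ({ζ} : Set E) := by rw [h1]; trivial
  induction h2 using Algebra.adjoin_induction with
  | mem y hy => rw [Set.mem_singleton_iff.mp hy, hz]
  | algebraMap y => exact hL y
  | add a b _ _ ha hb => rw [map_add, map_add, ha, hb]
  | mul a b _ _ ha hb => rw [map_mul, map_mul, ha, hb]

theorem setup {K L : Type} [Field K] [NumberField K] [Field L] [NumberField L] [Algebra K L]
    [IsGalois K L] {l : ℕ} (hl : l.Prime) (hd : Module.finrank K L = l) :
    ∃ (E : Type) (_ : Field E) (_ : NumberField E) (_ : Algebra K E) (_ : Algebra L E)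
      (_ : IsScalarTower K L E) (_ : IsGalois L E) (F : IntermediateField K E) (σ : L ≃ₐ[K] L)
      (s : E ≃ₐ[F] E) (ζ θ : E),
      (∀ g : L ≃ₐ[K] L, g ∈ Subgroup.zpowers σ) ∧
      (∀ x : L, s (algebraMap L E x) = algebraMap L E (σ x)) ∧
      IsPrimitiveRoot ζ l ∧ ζ ∈ F ∧ θ ≠ 0 ∧ θ ^ l ∈ F ∧ s θ = ζ * θ ∧
      (∀ (g : E ≃ₐ[L] E) (x : E), g (s x) = s (g x)) ∧
      (Module.finrank L E).Coprime l ∧ Module.finrank F E = l ∧ F⟮θ⟯ = ⊤ := by
  classical
  have : NeZero l := ⟨hl.ne_zero⟩
  have : Fact l.Prime := ⟨hl⟩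
  obtain ⟨E, _, _, _, _, _, hEL⟩ : ∃ (E : Type) (_ : Field E) (_ : NumberField E) (_ : Algebra K E)
      (_ : Algebra L E) (_ : IsScalarTower K L E), IsCyclotomicExtension {l} L E :=
    ⟨CyclotomicField l L, inferInstance, inferInstance, inferInstance, inferInstance,
      inferInstance, inferInstance⟩
  have : IsGalois L E := IsCyclotomicExtension.isGalois {l} L E
  have hKE : IsGalois K E := isGalois_cyc K L E l
  have hζ := IsCyclotomicExtension.zeta_spec l L E
  set ζ₀ : E := IsCyclotomicExtension.zeta l L E with hζ₀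
  have hcF := hζ.intermediateField_adjoin_isCyclotomicExtension K
  set F : IntermediateField K E := K⟮ζ₀⟯ with hF
  have hζF : ζ₀ ∈ F := mem_adjoin_simple_self K ζ₀
  -- degrees
  have hcop : ∀ n : ℕ, n ≠ 0 → n ≤ l - 1 → n.Coprime l := by
    intro n h0 hn
    have h1 := hl.pos
    have h2 : ¬ l ∣ n := fun h => by
      have := Nat.le_of_dvd (Nat.pos_of_ne_zero h0) h
      omega
    exact ((Nat.Prime.coprime_iff_not_dvd hl).mpr h2).symm
  have hle : ∀ (A B : Type) [Field A] [Field B] [Algebra A B] [NumberField A]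
      [IsCyclotomicExtension {l} A B], Module.finrank A B ≤ l - 1 := by
    intro A B _ _ _ _ _
    have hz := IsCyclotomicExtension.zeta_spec l A B
    have : FiniteDimensional A B := IsCyclotomicExtension.finiteDimensional {l} A B
    have h1 : IntermediateField.adjoin A ({IsCyclotomicExtension.zeta l A B} : Set B) = ⊤ := by
      rw [eq_top_iff]
      intro x _
      have h2 := IsCyclotomicExtension.adjoin_primitive_root_eq_top (A := A) (B := B) hz
      have h3 : x ∈ Algebra.adjoin A ({IsCyclotomicExtension.zeta l A B} : Set B) := by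
        rw [h2]; trivial
      exact IntermediateField.algebra_adjoin_le_adjoin A _ h3
    have h4 : Module.finrank A B = (minpoly A (IsCyclotomicExtension.zeta l A B)).natDegree := by
      rw [← IntermediateField.adjoin.finrank (Algebra.IsIntegral.isIntegral _), h1,
        IntermediateField.finrank_top']
    rw [h4, ← Nat.totient_prime hl, ← natDegree_cyclotomic l A]
    refine natDegree_le_of_dvd ?_ (cyclotomic_ne_zero l A)
    apply minpoly.dvd
    rw [aeval_def, eval₂_eq_eval_map, map_cyclotomic]
    exact (hz.isRoot_cyclotomic hl.pos).eq_zero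
  have hE1 : Module.finrank L E ≤ l - 1 := hle L E
  have hE0 : Module.finrank L E ≠ 0 := Module.finrank_pos.ne'
  have hF1 : Module.finrank K F ≤ l - 1 := hle K F
  have hF0 : Module.finrank K F ≠ 0 := Module.finrank_pos.ne'
  have hmul : Module.finrank K F * Module.finrank F E = l * Module.finrank L E := by
    rw [Module.finrank_mul_finrank K F E, ← hd, Module.finrank_mul_finrank K L E]
  have hdvd : l ∣ Module.finrank F E :=
    (hcop _ hF0 hF1).symm.dvd_of_dvd_mul_left ⟨_, hmul⟩
  -- the restriction
  have hFE : IsGalois F E := inferInstance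
  let res : (E ≃ₐ[F] E) →* (L ≃ₐ[K] L) :=
    { toFun := fun t => (t.restrictScalars K).restrictNormal L
      map_one' := by
        ext x
        apply (algebraMap L E).injective
        rw [AlgEquiv.restrictNormal_commutes]
        rfl
      map_mul' := fun a b => by
        ext x
        apply (algebraMap L E).injective
        rw [AlgEquiv.restrictNormal_commutes, AlgEquiv.mul_apply, AlgEquiv.restrictNormal_commutes,
          AlgEquiv.restrictNormal_commutes]
        rfl }
  have hres : ∀ (t : E ≃ₐ[F] E) (x : L), t (algebraMap L E x) = algebraMap L E (res t x) :=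
    fun t x => (AlgEquiv.restrictNormal_commutes (t.restrictScalars K) L x).symm
  have hfix : ∀ t : E ≃ₐ[F] E, t ζ₀ = ζ₀ := fun t => t.commutes ⟨ζ₀, hζF⟩
  have hinj : Function.Injective res := by
    rw [injective_iff_map_eq_one]
    intro t ht
    ext x
    refine ext_cyc (L := L) hζ (t : E →+* E) (RingHom.id E) (fun y => ?_) (hfix t) x
    change t (algebraMap L E y) = algebraMap L E y
    rw [hres, ht]
    rfl
  have hcardK : Nat.card (L ≃ₐ[K] L) = l := by rw [IsGalois.card_aut_eq_finrank, hd]
  have hcardF : Nat.card (E ≃ₐ[F] E) = Module.finrank F E := IsGalois.card_aut_eq_finrank F E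
  have hdeg : Module.finrank F E = l := by
    refine le_antisymm ?_ (Nat.le_of_dvd Module.finrank_pos hdvd)
    rw [← hcardF, ← hcardK]
    exact Nat.card_le_card_of_injective res hinj
  have hcardF' : Nat.card (E ≃ₐ[F] E) = l := hcardF.trans hdeg
  have hcyc : IsCyclic (E ≃ₐ[F] E) := isCyclic_of_prime_card hcardF'
  -- Kummer theory
  have hζ' : IsPrimitiveRoot (⟨ζ₀, hζF⟩ : F) l := IsPrimitiveRoot.coe_submonoidClass_iff.mp hζ
  obtain ⟨θ, hθ, htop⟩ := exists_root_adjoin_eq_top_of_isCyclic F E (by
    rw [hdeg]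
    exact ⟨_, (mem_primitiveRoots hl.pos).mpr hζ'⟩)
  rw [hdeg] at hθ
  obtain ⟨c, hc⟩ := hθ
  obtain ⟨s, hs⟩ := hcyc.exists_generator
  have hs1 : s ≠ 1 := by
    rintro rfl
    have h1 : ∀ t : E ≃ₐ[F] E, t = 1 := fun t => by
      obtain ⟨k, hk⟩ := hs t
      simpa using hk.symm
    have : Nat.card (E ≃ₐ[F] E) = 1 := by
      have : Subsingleton (E ≃ₐ[F] E) := ⟨fun a b => (h1 a).trans (h1 b).symm⟩
      exact Nat.card_of_subsingleton 1
    rw [hcardF'] at this
    exact hl.one_lt.ne' this
  have hθ0 : θ ≠ 0 := by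
    rintro rfl
    rw [adjoin_zero] at htop
    have h1 : Module.finrank F E = 1 := by
      rw [← IntermediateField.bot_eq_top_iff_finrank_eq_one]
      exact htop
    rw [hdeg] at h1
    exact hl.one_lt.ne' h1
  have hsθ : s θ ≠ θ := by
    intro h
    apply hs1
    ext x
    have hx : x ∈ F⟮θ⟯ := by rw [htop]; trivial
    have h2 : F⟮θ⟯ ≤ IntermediateField.fixedField (Subgroup.zpowers s) := by
      rw [adjoin_simple_le_iff]
      rintro ⟨t, k, rfl⟩
      have h3 : s ∈ MulAction.stabilizer (E ≃ₐ[F] E) θ := h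
      exact Subgroup.zpow_mem _ h3 k
    exact h2 hx ⟨s, Subgroup.mem_zpowers s⟩
  set ζ : E := s θ / θ with hζdef
  have hζl : ζ ^ l = 1 := by
    rw [hζdef, div_pow, ← map_pow, ← hc, AlgEquiv.commutes, hc]
    exact div_self (pow_ne_zero _ hθ0)
  have hζ1 : ζ ≠ 1 := fun h => hsθ (by rw [hζdef, div_eq_one_iff_eq hθ0] at h; exact h)
  have hζp : IsPrimitiveRoot ζ l := by
    have := orderOf_eq_prime hζl hζ1
    rw [← this]
    exact IsPrimitiveRoot.orderOf ζ
  have hζF' : ζ ∈ F := by
    obtain ⟨i, -, hi⟩ := hζ.eq_pow_of_pow_eq_one hζl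
    rw [← hi]
    exact pow_mem hζF i
  have hbij : Function.Bijective res :=
    hinj.bijective_of_nat_card_le (by rw [hcardK, hcardF'])
  refine ⟨E, inferInstance, inferInstance, inferInstance, inferInstance, inferInstance, inferInstance,
    F, res s, s, ζ, θ, ?_, hres s, hζp, hζF', hθ0, ?_, ?_, ?_, hcop _ hE0 hE1, hdeg, htop⟩
  · intro g
    obtain ⟨t, rfl⟩ := hbij.2 g
    obtain ⟨k, rfl⟩ := hs t
    exact ⟨k, (map_zpow res s k).symm⟩
  · rw [← hc]
    exact c.2
  · rw [hζdef, div_mul_cancel₀ _ hθ0]
  · intro g x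
    refine ext_cyc (L := L) hζ ((g : E →+* E).comp (s : E →+* E))
      ((s : E →+* E).comp (g : E →+* E)) (fun y => ?_) ?_ x
    · change g (s (algebraMap L E y)) = s (g (algebraMap L E y))
      rw [hres, g.commutes, g.commutes, hres]
    · change g (s ζ₀) = s (g ζ₀)
      have h1 : (g ζ₀) ^ l = 1 := by rw [← map_pow, hζ.pow_eq_one, map_one]
      obtain ⟨i, -, hi⟩ := hζ.eq_pow_of_pow_eq_one h1
      rw [hfix, ← hi, map_pow, hfix]

end Vale.Agent.P022.H218
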